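import Vale.Agent.P268.MathlibUsed

namespace Vale.Agent.P268

open Topology Module

variable {E : Type*} [NormedAddCommGroup E] [NormedSpace ℂ E]

/-- The multiplicity at the origin: the least order of a nonzero derivative of `f` at `0`. -/
noncomputable def mult (f : E → ℂ) : ℕ :=
  sInf {k | iteratedFDeriv ℂ k f 0 ≠ 0}

/-- `f` defines a reduced germ at the origin which vanishes at the origin. -/
def Red (f : E → ℂ) : Prop :=
  AnalyticAt ℂ f 0 ∧ f 0 = 0 ∧ ∀ g h : E → ℂ, AnalyticAt ℂ g 0 → AnalyticAt ℂ h 0 →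
    g 0 = 0 → ¬ (∀ᶠ z in 𝓝 0, f z = g z ^ 2 * h z)

/-- The germs at the origin of the zero sets of `f` and `g` are ambiently homeomorphic. -/
def AmbHomeo (f g : E → ℂ) : Prop :=
  ∃ φ : OpenPartialHomeomorph E E, 0 ∈ φ.source ∧ φ 0 = 0 ∧
    φ '' ({z | f z = 0} ∩ φ.source) = {z | g z = 0} ∩ φ.target

/-- `f` is homogeneous. -/
def Homog (f : E → ℂ) : Prop :=
  ∃ d : ℕ, ∀ (c : ℂ) (z : E), f (c • z) = c ^ d * f z

/-- Class T: `f` is a product of germs `F i` vanishing at `0`, and for each `q` there are a set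
`J` of indices and an index `i` such that the common zero set of the `F j`, `j ∈ J`, meets the
zero set of `F i` only in `0` (so it is at most one-dimensional) and contains a smooth curve germ
`γ` which is transversal to `F q`. -/
def ClassT (f : E → ℂ) : Prop :=
  ∃ (r : ℕ) (F : Fin r → E → ℂ), (∀ i, AnalyticAt ℂ (F i) 0 ∧ F i 0 = 0) ∧
    (∀ᶠ z in 𝓝 0, f z = ∏ i, F i z) ∧
    ∀ q, ∃ (J : Finset (Fin r)) (i : Fin r) (γ : ℂ → E),
      AnalyticAt ℂ γ 0 ∧ γ 0 = 0 ∧ deriv γ 0 ≠ 0 ∧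
      (∀ᶠ t in 𝓝 0, ∀ j ∈ J, F j (γ t) = 0) ∧
      (∀ᶠ z in 𝓝 0, (∀ j ∈ J, F j z = 0) → F i z = 0 → z = 0) ∧
      analyticOrderAt (fun t => F q (γ t)) 0 = mult (F q)

/-- Class Z: `f` is the product of germs `F i` vanishing at `0` and of `M` germs `l j` of smooth
hypersurfaces whose differentials at `0` are in general position (any `dim E` of them are linearly
independent), where `dim E ≤ M` and `mult (F i) ≤ M - dim E + 1` for every `i`. -/
def ClassZ (f : E → ℂ) : Prop :=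
  ∃ (r M : ℕ) (F : Fin r → E → ℂ) (l : Fin M → E → ℂ),
    (∀ i, AnalyticAt ℂ (F i) 0 ∧ F i 0 = 0) ∧ (∀ j, AnalyticAt ℂ (l j) 0 ∧ l j 0 = 0) ∧
    (∀ᶠ z in 𝓝 0, f z = (∏ i, F i z) * ∏ j, l j z) ∧ finrank ℂ E ≤ M ∧
    (∀ i, mult (F i) + finrank ℂ E ≤ M + 1) ∧
    ∀ s : Finset (Fin M), s.card ≤ finrank ℂ E →
      LinearIndependent ℂ (fun j : s => fderiv ℂ (l j) 0)

end Vale.Agent.P268
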