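import Mathlib.Algebra.Module.StablyFree.Basic
import Mathlib.Algebra.Module.Submodule.Union
import Mathlib.Algebra.Order.Ring.Star
import Mathlib.Algebra.Order.Star.Real
import Mathlib.Analysis.Analytic.IteratedFDeriv
import Mathlib.Analysis.CStarAlgebra.Classes
import Mathlib.Analysis.Calculus.ContDiff.FiniteDimension
import Mathlib.Analysis.Calculus.Deriv.Prod
import Mathlib.Analysis.Calculus.Implicit
import Mathlib.Analysis.Calculus.ParametricIntegral
import Mathlib.Analysis.Complex.BranchLogRoot
import Mathlib.Analysis.Complex.Convex
import Mathlib.Analysis.Complex.OpenMapping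
import Mathlib.Analysis.Complex.RemovableSingularity
import Mathlib.Analysis.Complex.TaylorSeries
import Mathlib.Analysis.Convex.Contractible
import Mathlib.Analysis.SpecialFunctions.Complex.Analytic
import Mathlib.Data.Int.Star
import Mathlib.Data.Multiset.Functor
import Mathlib.LinearAlgebra.Lagrange
import Mathlib.LinearAlgebra.Matrix.FiniteDimensional
import Mathlib.Order.CompletePartialOrder
import Mathlib.RingTheory.DedekindDomain.SInteger
import Mathlib.RingTheory.Etale.Weakly
import Mathlib.RingTheory.Finiteness.ModuleFinitePresentation
import Mathlib.RingTheory.Flat.TorsionFree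
import Mathlib.RingTheory.MvPolynomial.Symmetric.NewtonIdentities
import Mathlib.RingTheory.PicardGroup
import Mathlib.RingTheory.SimpleRing.Principal
import Mathlib.RingTheory.TotallySplit
import Mathlib.Tactic

/-! The part of Mathlib that the development of this folder uses. -/
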